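import Mathlib
import Vale.Agent.Lib.P012.Pool

namespace Vale.Agent.Lib.P012Full

open Finset

/-- Number of pairs of index sets whose products agree modulo `m`. -/
def coll {k : ℕ} (p : Fin k → ℕ) (m : ℕ) : ℕ :=
  ((univ : Finset (Finset (Fin k) × Finset (Fin k))).filter
    (fun I => (∏ i ∈ I.1, p i) ≡ (∏ i ∈ I.2, p i) [MOD m])).card

section

variable {k : ℕ}

theorem card_modEq (N m c : ℕ) (hm : 0 < m) :
    ((range N).filter (fun v => v ≡ c [MOD m])).card ≤ N / m + 1 := by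
  rw [← Nat.count_eq_card_filter_range, Nat.count_modEq_card _ hm]
  split_ifs <;> omega

theorem primeFactors_prod_card (J : Finset (Fin k)) (p : Fin k → ℕ)
    (hp : ∀ i ∈ J, (p i).Prime) : (∏ i ∈ J, p i).primeFactors.card ≤ J.card := by
  have h : (∏ i ∈ J, p i).primeFactors ⊆ J.image p := by
    intro q hq
    rw [Nat.mem_primeFactors] at hq
    obtain ⟨i, hi, hqi⟩ := (hq.1.prime.dvd_finsetProd_iff _).1 hq.2.1
    rw [Nat.prime_dvd_prime_iff_eq hq.1 (hp i hi)] at hqi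
    exact Finset.mem_image.2 ⟨i, hi, hqi.symm⟩
  exact (Finset.card_le_card h).trans Finset.card_image_le

theorem fiber_card (P : Finset ℕ) (hP : ∀ q ∈ P, q.Prime) (J : Finset (Fin k)) (b : Fin k → ℕ)
    (v : ℕ) :
    ((Fintype.piFinset (fun _ : Fin k => P)).filter
      (fun p => (∀ i, i ∉ J → p i = b i) ∧ ∏ i ∈ J, p i = v)).card ≤ J.card ^ J.card := by
  classical
  set S := (Fintype.piFinset (fun _ : Fin k => P)).filter
      (fun p => (∀ i, i ∉ J → p i = b i) ∧ ∏ i ∈ J, p i = v) with hS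
  rcases S.eq_empty_or_nonempty with h0 | ⟨p0, hp0⟩
  · rw [h0]; simp
  have hsub : S ⊆ Fintype.piFinset (fun i => if i ∈ J then v.primeFactors else {b i}) := by
    intro p hp
    rw [hS, mem_filter, Fintype.mem_piFinset] at hp
    rw [Fintype.mem_piFinset]
    intro i
    by_cases hi : i ∈ J
    · simp only [hi, if_true]
      rw [Nat.mem_primeFactors]
      refine ⟨hP _ (hp.1 i), ?_, ?_⟩
      · rw [← hp.2.2]; exact Finset.dvd_prod_of_mem p hi
      · rw [← hp.2.2]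
        exact Finset.prod_ne_zero_iff.2 fun j _ => (hP _ (hp.1 j)).ne_zero
    · simp only [hi, if_false, mem_singleton]
      exact hp.2.1 i hi
  refine (Finset.card_le_card hsub).trans ?_
  rw [Fintype.card_piFinset]
  have h1 : ∀ i, (if i ∈ J then v.primeFactors else {b i}).card =
      if i ∈ J then v.primeFactors.card else 1 := by
    intro i; split_ifs <;> simp
  rw [Finset.prod_congr rfl fun i _ => h1 i, Fintype.prod_ite_mem, Finset.prod_const]
  apply Nat.pow_le_pow_left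
  rw [hS, mem_filter, Fintype.mem_piFinset] at hp0
  rw [← hp0.2.2]
  exact primeFactors_prod_card J p0 fun i _ => hP _ (hp0.1 i)

theorem fiber_mod_card (P : Finset ℕ) (hP : ∀ q ∈ P, q.Prime) (B : ℕ) (hB : ∀ q ∈ P, q < B)
    (J : Finset (Fin k)) (hJ : J.Nonempty) (b : Fin k → ℕ) (m c : ℕ) (hm : 0 < m) :
    ((Fintype.piFinset (fun _ : Fin k => P)).filter
      (fun p => (∀ i, i ∉ J → p i = b i) ∧ ∏ i ∈ J, p i ≡ c [MOD m])).card ≤
        J.card ^ J.card * (B ^ J.card / m + 1) := by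
  classical
  refine (Finset.card_le_mul_card_image_of_maps_to (f := fun p : Fin k → ℕ => ∏ i ∈ J, p i)
    (t := (range (B ^ J.card)).filter (fun v => v ≡ c [MOD m])) ?_ (J.card ^ J.card) ?_).trans ?_
  · intro p hp
    rw [mem_filter, Fintype.mem_piFinset] at hp
    rw [mem_filter, mem_range]
    refine ⟨?_, hp.2.2⟩
    rw [← Finset.prod_const]
    exact Finset.prod_lt_prod_of_nonempty (fun i _ => (hP _ (hp.1 i)).pos) (fun i _ => hB _ (hp.1 i))
      hJ
  · intro v _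
    refine le_trans (Finset.card_le_card ?_) (fiber_card P hP J b v)
    intro p hp
    rw [mem_filter, mem_filter] at hp
    rw [mem_filter]
    exact ⟨hp.1.1, hp.1.2.1, hp.2⟩
  · exact Nat.mul_le_mul_left _ (card_modEq _ _ _ hm)

theorem pair_card (P : Finset ℕ) (hP : ∀ q ∈ P, q.Prime) (B : ℕ) (hB : ∀ q ∈ P, q < B)
    (I I' : Finset (Fin k)) (R : ℕ) (hR : 0 < R) (hRI : R ≤ (I \ I').card) (m : ℕ) (hm : 0 < m) :
    ((Fintype.piFinset (fun _ : Fin k => P)).filter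
      (fun p => (∀ i, m.Coprime (p i)) ∧ ∏ i ∈ I, p i ≡ ∏ i ∈ I', p i [MOD m])).card ≤
        R ^ R * (B ^ R / m + 1) * P.card ^ (k - R) := by
  classical
  obtain ⟨J, hJsub, hJc⟩ := Finset.exists_subset_card_eq hRI
  have hJne : J.Nonempty := by rw [← Finset.card_pos, hJc]; exact hR
  set S := (Fintype.piFinset (fun _ : Fin k => P)).filter
      (fun p => (∀ i, m.Coprime (p i)) ∧ ∏ i ∈ I, p i ≡ ∏ i ∈ I', p i [MOD m]) with hS
  set T := Fintype.piFinset (fun i : Fin k => if i ∈ J then ({0} : Finset ℕ) else P) with hT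
  have hTc : T.card = P.card ^ (k - R) := by
    rw [hT, Fintype.card_piFinset]
    have h1 : ∀ i, (if i ∈ J then ({0} : Finset ℕ) else P).card =
        if i ∈ Jᶜ then P.card else 1 := by
      intro i; by_cases hi : i ∈ J <;> simp [hi]
    rw [Finset.prod_congr rfl fun i _ => h1 i, Fintype.prod_ite_mem, Finset.prod_const,
      Finset.card_compl, Fintype.card_fin, hJc]
  refine (Finset.card_le_mul_card_image_of_maps_to
    (f := fun (p : Fin k → ℕ) (i : Fin k) => if i ∈ J then 0 else p i)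
    (t := T) ?_ (R ^ R * (B ^ R / m + 1)) ?_).trans ?_
  · intro p hp
    rw [hS, mem_filter, Fintype.mem_piFinset] at hp
    rw [hT, Fintype.mem_piFinset]
    intro i
    by_cases hi : i ∈ J
    · simp [hi]
    · simp only [hi, if_false]; exact hp.1 i
  · intro b hb
    rcases (S.filter (fun p => (fun (i : Fin k) => if i ∈ J then 0 else p i) = b)).eq_empty_or_nonempty
      with h0 | ⟨p0, hp0⟩
    · rw [h0]; simp
    have hkey := fiber_mod_card P hP B hB J hJne b m (∏ i ∈ J, p0 i) hm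
    rw [hJc] at hkey
    refine le_trans (Finset.card_le_card ?_) hkey
    have hout : ∀ p : Fin k → ℕ, (fun (i : Fin k) => if i ∈ J then 0 else p i) = b →
        ∀ i, i ∉ J → p i = b i := by
      intro p hp i hi
      have := congrFun hp i
      simpa [hi] using this
    have hsplit : ∀ p : Fin k → ℕ, (∀ i, i ∉ J → p i = b i) →
        ∏ i ∈ I, p i = (∏ i ∈ J, p i) * ∏ i ∈ I \ J, b i ∧ ∏ i ∈ I', p i = ∏ i ∈ I', b i := by
      intro p hp
      constructor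
      · rw [← Finset.prod_sdiff (hJsub.trans Finset.sdiff_subset), mul_comm]
        congr 1
        apply Finset.prod_congr rfl
        intro i hi
        exact hp i (Finset.mem_sdiff.1 hi).2
      · apply Finset.prod_congr rfl
        intro i hi
        apply hp
        intro hiJ
        exact (Finset.mem_sdiff.1 (hJsub hiJ)).2 hi
    rw [mem_filter, hS, mem_filter, Fintype.mem_piFinset] at hp0
    have hb0 := hout p0 hp0.2
    have hs0 := hsplit p0 hb0
    have hcop : Nat.Coprime m (∏ i ∈ I \ J, b i) := by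
      apply Nat.Coprime.prod_right
      intro i hi
      rw [← hb0 i (Finset.mem_sdiff.1 hi).2]
      exact hp0.1.2.1 i
    intro p hp
    rw [mem_filter, hS, mem_filter, Fintype.mem_piFinset] at hp
    have hb1 := hout p hp.2
    have hs1 := hsplit p hb1
    rw [mem_filter, Fintype.mem_piFinset]
    refine ⟨hp.1.1, hb1, ?_⟩
    have e1 := hp.1.2.2
    have e0 := hp0.1.2.2
    rw [hs1.1, hs1.2] at e1
    rw [hs0.1, hs0.2] at e0
    exact Nat.ModEq.cancel_right_of_coprime hcop (e1.trans e0.symm)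
  · rw [hTc]

/-- Few pairs have a small difference. -/
theorem few_pairs (R : ℕ) :
    (((univ : Finset (Finset (Fin k) × Finset (Fin k))).filter
      (fun I => (I.1 \ I.2).card < R)).card : ℝ) ≤ 2 ^ R * (7 / 2) ^ k := by
  classical
  have h1 : (((univ : Finset (Finset (Fin k) × Finset (Fin k))).filter
      (fun I => (I.1 \ I.2).card < R)).card : ℝ) ≤
      ∑ I : Finset (Fin k) × Finset (Fin k), (2 : ℝ) ^ R * (1 / 2) ^ (I.1 \ I.2).card := by
    rw [Finset.card_filter, Nat.cast_sum]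
    apply Finset.sum_le_sum
    intro I _
    split_ifs with h
    · rw [Nat.cast_one]
      have h2 : (2 : ℝ) ^ R = 2 ^ (R - (I.1 \ I.2).card) * 2 ^ (I.1 \ I.2).card := by
        rw [← pow_add]; congr 1; omega
      rw [h2, mul_assoc, ← mul_pow]
      norm_num
      exact one_le_pow₀ (by norm_num)
    · simp only [Nat.cast_zero]; positivity
  refine h1.trans ?_
  rw [← Finset.mul_sum]
  apply mul_le_mul_of_nonneg_left _ (by positivity)
  rw [Fintype.sum_prod_type_right]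
  have h2 : ∀ I' : Finset (Fin k), ∑ I : Finset (Fin k), (1 / 2 : ℝ) ^ (I \ I').card =
      2 ^ I'.card * (3 / 2) ^ (Fintype.card (Fin k) - I'.card) := by
    intro I'
    have h3 : ∀ I : Finset (Fin k), (1 / 2 : ℝ) ^ (I \ I').card =
        ∏ i ∈ I, (if i ∈ I' then (1 : ℝ) else 1 / 2) := by
      intro I
      rw [Finset.prod_ite]
      simp only [Finset.prod_const_one, one_mul, Finset.prod_const]
      congr 2
      ext i; simp
    rw [Finset.sum_congr rfl fun I _ => h3 I]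
    have h4 := Finset.prod_one_add (univ : Finset (Fin k)) (f := fun i => if i ∈ I' then (1 : ℝ) else 1 / 2)
    rw [Finset.powerset_univ] at h4
    rw [← h4]
    have h5 : ∀ i : Fin k, (1 + if i ∈ I' then (1 : ℝ) else 1 / 2) = if i ∈ I' then 2 else 3 / 2 := by
      intro i; split_ifs <;> norm_num
    rw [Finset.prod_congr rfl fun i _ => h5 i, Finset.prod_ite]
    simp only [Finset.prod_const]
    congr 2
    · congr 1; ext i; simp
    · rw [← Finset.card_compl]; congr 1; ext i; simp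
  rw [Finset.sum_congr rfl fun I' _ => h2 I', Fintype.sum_pow_mul_eq_add_pow, Fintype.card_fin]
  norm_num


/-- Total number of collisions over all choices of primes. -/
theorem total_coll (P : Finset ℕ) (hP : ∀ q ∈ P, q.Prime) (B : ℕ) (hB : ∀ q ∈ P, q < B)
    (R : ℕ) (hR : 0 < R) (m : ℕ) (hm : 0 < m) :
    ((∑ p ∈ (Fintype.piFinset (fun _ : Fin k => P)).filter (fun p => ∀ i, m.Coprime (p i)),
      coll p m : ℕ) : ℝ) ≤
      (P.card : ℝ) ^ k * (2 ^ R * (7 / 2) ^ k) +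
        4 ^ k * (R ^ R * ((B : ℝ) ^ R / m + 1) * (P.card : ℝ) ^ (k - R)) := by
  classical
  set Om := Fintype.piFinset (fun _ : Fin k => P) with hOm
  have hOc : Om.card = P.card ^ k := by
    rw [hOm, Fintype.card_piFinset, Finset.prod_const, Finset.card_univ, Fintype.card_fin]
  have h1 : (∑ p ∈ Om.filter (fun p => ∀ i, m.Coprime (p i)), coll p m : ℕ) =
      ∑ I : Finset (Fin k) × Finset (Fin k), (Om.filter
      (fun p => (∀ i, m.Coprime (p i)) ∧ ∏ i ∈ I.1, p i ≡ ∏ i ∈ I.2, p i [MOD m])).card := by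
    simp only [coll, Finset.card_filter]
    rw [Finset.sum_comm]
    apply Finset.sum_congr rfl
    intro I _
    rw [Finset.sum_filter]
    apply Finset.sum_congr rfl
    intro p _
    rw [ite_and]
  rw [h1, Nat.cast_sum, ← Finset.sum_filter_add_sum_filter_not (univ)
    (fun I : Finset (Fin k) × Finset (Fin k) => (I.1 \ I.2).card < R)]
  apply add_le_add
  · have h2 : ∀ I ∈ (univ : Finset (Finset (Fin k) × Finset (Fin k))).filter
        (fun I => (I.1 \ I.2).card < R), (((Om.filter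
      (fun p => (∀ i, m.Coprime (p i)) ∧ ∏ i ∈ I.1, p i ≡ ∏ i ∈ I.2, p i [MOD m])).card : ℕ) : ℝ)
        ≤ (P.card : ℝ) ^ k := by
      intro I _
      have := Finset.card_filter_le Om
        (fun p => (∀ i, m.Coprime (p i)) ∧ ∏ i ∈ I.1, p i ≡ ∏ i ∈ I.2, p i [MOD m])
      rw [hOc] at this
      exact_mod_cast this
    refine (Finset.sum_le_card_nsmul _ _ _ h2).trans ?_
    rw [nsmul_eq_mul, mul_comm]
    exact mul_le_mul_of_nonneg_left (few_pairs R) (by positivity)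
  · have h2 : ∀ I ∈ (univ : Finset (Finset (Fin k) × Finset (Fin k))).filter
        (fun I => ¬ (I.1 \ I.2).card < R), (((Om.filter
      (fun p => (∀ i, m.Coprime (p i)) ∧ ∏ i ∈ I.1, p i ≡ ∏ i ∈ I.2, p i [MOD m])).card : ℕ) : ℝ)
        ≤ (R ^ R * ((B : ℝ) ^ R / m + 1) * (P.card : ℝ) ^ (k - R)) := by
      intro I hI
      rw [mem_filter] at hI
      have h3 := pair_card P hP B hB I.1 I.2 R hR (not_lt.1 hI.2) m hm
      have h4 : ((R ^ R * (B ^ R / m + 1) * P.card ^ (k - R) : ℕ) : ℝ) ≤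
          (R ^ R * ((B : ℝ) ^ R / m + 1) * (P.card : ℝ) ^ (k - R)) := by
        push_cast
        gcongr
        have := @Nat.cast_div_le ℝ _ _ _ (B ^ R) m
        push_cast at this
        exact this
      refine le_trans ?_ h4
      exact_mod_cast h3
    refine (Finset.sum_le_card_nsmul _ _ _ h2).trans ?_
    rw [nsmul_eq_mul]
    apply mul_le_mul_of_nonneg_right _ (by positivity)
    have h5 := Finset.card_filter_le (univ : Finset (Finset (Fin k) × Finset (Fin k)))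
      (fun I => ¬ (I.1 \ I.2).card < R)
    have h6 : (univ : Finset (Finset (Fin k) × Finset (Fin k))).card = 4 ^ k := by
      rw [Finset.card_univ, Fintype.card_prod, Fintype.card_finset, Fintype.card_fin, ← mul_pow]
      norm_num
    rw [h6] at h5
    exact_mod_cast h5

end

theorem pow_four_step (x : ℕ) (hx : 1600 ≤ x) : (x + 32) ^ 4 ≤ 2 * x ^ 4 := by
  have h1 : 4 * (x + 32) ^ 2 ≤ 5 * x ^ 2 := by nlinarith
  have h2 : (4 * (x + 32) ^ 2) ^ 2 ≤ (5 * x ^ 2) ^ 2 := Nat.pow_le_pow_left h1 2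
  have h3 : (4 * (x + 32) ^ 2) ^ 2 = 16 * (x + 32) ^ 4 := by ring
  have h4 : (5 * x ^ 2) ^ 2 = 25 * x ^ 4 := by ring
  rw [h3, h4] at h2
  omega

theorem pow_four_le (κ : ℕ) (hκ : 50 ≤ κ) : (32 * κ) ^ 4 ≤ 2 ^ (κ - 7) := by
  induction κ, hκ using Nat.le_induction with
  | base => norm_num
  | succ n hn ih =>
    have h1 : 32 * (n + 1) = 32 * n + 32 := by ring
    rw [h1]
    refine (pow_four_step (32 * n) (by omega)).trans ?_
    have h2 : 2 ^ (n + 1 - 7) = 2 * 2 ^ (n - 7) := by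
      rw [show n + 1 - 7 = (n - 7) + 1 by omega, pow_succ]; ring
    rw [h2]
    exact Nat.mul_le_mul_left _ ih

theorem numeric (κ : ℕ) (hκ : 50 ≤ κ) (m : ℕ) (h1 : 2 ^ (κ - 7) ≤ m) (h2 : m ≤ 2 ^ (2 ^ κ)) :
    ∃ R, 0 < R ∧ R ≤ 8 * 2 ^ κ ∧ m ≤ (2 ^ (16 * κ)) ^ R ∧ (32 * κ * R) ^ (4 * R) ≤ m ∧
      4 * R ≤ 2 ^ κ := by
  have hK : 64 * κ ≤ 2 ^ κ := by
    have h3 := pow_four_le κ hκ
    have h4 : (32 * κ) ≤ (32 * κ) ^ 4 := Nat.le_self_pow (by norm_num) _
    have h5 : 2 ^ κ = 2 ^ 7 * 2 ^ (κ - 7) := by rw [← pow_add]; congr 1; omega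
    omega
  have hm2 : 2 ≤ m := by
    refine le_trans ?_ h1
    calc 2 = 2 ^ 1 := rfl
      _ ≤ _ := Nat.pow_le_pow_right (by norm_num) (by omega)
  set l := Nat.clog 2 m with hl
  have hlK : l ≤ 2 ^ κ := Nat.clog_le_of_le_pow h2
  have hml : m ≤ 2 ^ l := Nat.le_pow_clog (by norm_num) m
  have hlpos : 0 < l := Nat.clog_pos (by norm_num) hm2
  have hlm : 2 ^ (l - 1) < m := by
    have := Nat.pow_pred_clog_lt_self (b := 2) (by norm_num) (x := m) (by omega)
    simpa using this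
  set R := (l + 16 * κ - 1) / (16 * κ) with hR
  have hRpos : 0 < R := Nat.div_pos (by omega) (by omega)
  have hR1 : l ≤ 16 * κ * R := by
    have := Nat.lt_mul_div_succ (l + 16 * κ - 1) (show 0 < 16 * κ by omega)
    rw [← hR] at this
    rw [Nat.mul_succ] at this
    omega
  have hR2 : 16 * κ * R ≤ l + 16 * κ - 1 := Nat.mul_div_le _ _
  have hRk : 16 * 50 * R ≤ 16 * κ * R := Nat.mul_le_mul_right _ (by omega)
  refine ⟨R, hRpos, by omega, ?_, ?_, by omega⟩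
  · rw [← pow_mul]
    exact hml.trans (Nat.pow_le_pow_right (by norm_num) hR1)
  · rcases Nat.lt_or_ge R 2 with h3 | h3
    · have h4 : R = 1 := by omega
      rw [h4, mul_one, mul_one]
      exact (pow_four_le κ hκ).trans h1
    · have h5 : 16 * κ * (R - 1) ≤ l - 1 := by
        rw [Nat.mul_sub, mul_one]; omega
      have h6 : 8 * κ * R ≤ 16 * κ * (R - 1) := by
        rw [Nat.mul_sub, mul_one]
        have e0 : 2 * (8 * κ) ≤ R * (8 * κ) := Nat.mul_le_mul_right _ h3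
        have e1 : 16 * κ * R = 2 * (R * (8 * κ)) := by ring
        have e2 : 8 * κ * R = R * (8 * κ) := by ring
        omega
      have h7 : 32 * κ * R ≤ 2 ^ (2 * κ) := by
        have h8 : 32 * κ * R = 2 * (16 * κ * R) := by ring
        have h9 : 2 ^ (2 * κ) = 2 ^ κ * 2 ^ κ := by rw [← pow_add]; congr 1; ring
        have h10 : 4 * 2 ^ κ ≤ 2 ^ κ * 2 ^ κ := Nat.mul_le_mul_right _ (by omega)
        omega
      calc (32 * κ * R) ^ (4 * R) ≤ (2 ^ (2 * κ)) ^ (4 * R) := Nat.pow_le_pow_left h7 _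
        _ = 2 ^ (8 * κ * R) := by rw [← pow_mul]; congr 1; ring
        _ ≤ 2 ^ (l - 1) := Nat.pow_le_pow_right (by norm_num) (h6.trans h5)
        _ ≤ m := hlm.le

/-- The primes between `2 ^ (8 κ)` and `2 ^ (16 κ)`. -/
def Pr (κ : ℕ) : Finset ℕ :=
  (range (2 ^ (16 * κ))).filter (fun p => p.Prime ∧ 2 ^ (8 * κ) ≤ p)

theorem mem_Pr {κ p : ℕ} : p ∈ Pr κ ↔ p.Prime ∧ 2 ^ (8 * κ) ≤ p ∧ p < 2 ^ (16 * κ) := by
  rw [Pr, mem_filter, mem_range]; tauto

theorem card_Pr (κ : ℕ) (hκ : 50 ≤ κ) :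
    (2 : ℝ) ^ (16 * κ) ≤ (32 * κ : ℝ) * (Pr κ).card := by
  have h1 : Nat.primeCounting (2 ^ (16 * κ)) ≤ (Pr κ).card + 2 ^ (8 * κ) + 1 := by
    rw [Nat.primeCounting, Nat.primeCounting', Nat.count_eq_card_filter_range]
    have hsub : (Finset.range (2 ^ (16 * κ) + 1)).filter Nat.Prime ⊆
        (Pr κ ∪ Finset.range (2 ^ (8 * κ))) ∪ {2 ^ (16 * κ)} := by
      intro p hp
      rw [Finset.mem_filter, Finset.mem_range] at hp
      simp only [mem_Pr, Finset.mem_union, Finset.mem_range, Finset.mem_singleton]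
      by_cases h3 : p = 2 ^ (16 * κ)
      · right; exact h3
      · left
        by_cases h4 : p < 2 ^ (8 * κ)
        · right; exact h4
        · left
          exact ⟨hp.2, by omega, by omega⟩
    calc _ ≤ ((Pr κ ∪ Finset.range (2 ^ (8 * κ))) ∪ {2 ^ (16 * κ)}).card :=
          Finset.card_le_card hsub
      _ ≤ (Pr κ ∪ Finset.range (2 ^ (8 * κ))).card + 1 := by
          refine (Finset.card_union_le _ _).trans ?_
          rw [Finset.card_singleton]
      _ ≤ _ := by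
          gcongr
          refine (Finset.card_union_le _ _).trans ?_
          rw [Finset.card_range]
  have h2 := P012.pi_lower κ (by omega)
  have h1' : (Nat.primeCounting (2 ^ (16 * κ)) : ℝ) ≤ (Pr κ).card + 2 ^ (8 * κ) + 1 := by
    exact_mod_cast h1
  have h3 : (64 * κ : ℝ) ≤ 2 ^ κ := by
    have h3 := pow_four_le κ hκ
    have h4 : (32 * κ) ≤ (32 * κ) ^ 4 := Nat.le_self_pow (by norm_num) _
    have h5 : 2 ^ κ = 2 ^ 7 * 2 ^ (κ - 7) := by rw [← pow_add]; congr 1; omega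
    have h6 : 64 * κ ≤ 2 ^ κ := by omega
    exact_mod_cast h6
  have h4 : (2 : ℝ) ^ κ ≤ 2 ^ (8 * κ) := pow_le_pow_right₀ (by norm_num) (by omega)
  have h5 : (2 : ℝ) ^ (16 * κ) = 2 ^ (8 * κ) * 2 ^ (8 * κ) := by rw [← pow_add]; congr 1; ring
  have h6 : (1 : ℝ) ≤ 2 ^ (8 * κ) := one_le_pow₀ (by norm_num)
  have h7 : (50 : ℝ) ≤ κ := by exact_mod_cast hκ
  have h8 : (16 * κ : ℝ) * Nat.primeCounting (2 ^ (16 * κ)) ≤
      (16 * κ : ℝ) * ((Pr κ).card + 2 ^ (8 * κ) + 1) := by gcongr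
  nlinarith

theorem real_numeric (κ : ℕ) (hκ : 50 ≤ κ) (m : ℕ) (h1 : 2 ^ (κ - 7) ≤ m)
    (h2 : m ≤ 2 ^ (2 ^ κ)) :
    ((∑ p ∈ (Fintype.piFinset (fun _ : Fin (8 * 2 ^ κ) => Pr κ)).filter
      (fun p => ∀ i, m.Coprime (p i)), coll p m : ℕ) : ℝ) ≤
      3 * ((Pr κ).card : ℝ) ^ (8 * 2 ^ κ) * 4 ^ (8 * 2 ^ κ) * (m : ℝ) ^ (-(3 / 4) : ℝ) := by
  obtain ⟨R, hR, hRk, hmR, hRm, hRK⟩ := numeric κ hκ m h1 h2
  have hm : 0 < m := lt_of_lt_of_le (by positivity) h1
  have hm' : (0 : ℝ) < m := by exact_mod_cast hm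
  refine (total_coll (Pr κ) (fun q hq => (mem_Pr.1 hq).1) (2 ^ (16 * κ))
    (fun q hq => (mem_Pr.1 hq).2.2) R hR m hm).trans ?_
  set n : ℝ := ((Pr κ).card : ℝ) with hn
  set k : ℕ := 8 * 2 ^ κ with hk
  have hnB := card_Pr κ hκ
  have hn0 : 0 < n := by
    rcases (Nat.cast_nonneg (α := ℝ) (Pr κ).card).eq_or_lt with h | h
    · rw [← h] at hnB
      have : (0 : ℝ) < 2 ^ (16 * κ) := by positivity
      linarith
    · exact h
  -- fourth root of m
  set y : ℝ := (m : ℝ) ^ ((1 : ℝ) / 4) with hy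
  have hy0 : 0 < y := Real.rpow_pos_of_pos hm' _
  have hy4 : y ^ 4 = m := by
    rw [hy, ← Real.rpow_natCast, ← Real.rpow_mul hm'.le]; norm_num
  have hy3 : (m : ℝ) ^ (-(3 / 4) : ℝ) = (y ^ 3)⁻¹ := by
    rw [hy, ← Real.rpow_natCast, ← Real.rpow_mul hm'.le, ← Real.rpow_neg hm'.le]; norm_num
  have hfirst : (2 : ℝ) ^ R * (7 / 2) ^ k ≤ 4 ^ k * (y ^ 3)⁻¹ := by
    have e1 : ((2 : ℝ) ^ R * (7 / 8) ^ k * y ^ 3) ^ 4 ≤ 1 := by
      have e2 : ((2 : ℝ) ^ R * (7 / 8) ^ k * y ^ 3) ^ 4 =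
          2 ^ (4 * R) * ((7 / 8) ^ 32) ^ (2 ^ κ) * (m : ℝ) ^ 3 := by
        rw [← hy4, mul_pow, mul_pow, ← pow_mul, ← pow_mul, ← pow_mul, ← pow_mul, ← pow_mul, hk]
        congr 3 <;> ring_nf
      rw [e2]
      have e3 : (m : ℝ) ^ 3 ≤ 8 ^ (2 ^ κ) := by
        have : (m : ℝ) ≤ 2 ^ (2 ^ κ) := by exact_mod_cast h2
        calc (m : ℝ) ^ 3 ≤ (2 ^ (2 ^ κ)) ^ 3 := by gcongr
          _ = (2 ^ 3) ^ (2 ^ κ) := by rw [← pow_mul, ← pow_mul, mul_comm]
          _ = _ := by norm_num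
      have e4 : (2 : ℝ) ^ (4 * R) ≤ 2 ^ (2 ^ κ) := pow_le_pow_right₀ (by norm_num) hRK
      calc 2 ^ (4 * R) * ((7 / 8) ^ 32) ^ (2 ^ κ) * (m : ℝ) ^ 3 ≤
          2 ^ (2 ^ κ) * ((7 / 8) ^ 32) ^ (2 ^ κ) * 8 ^ (2 ^ κ) := by gcongr
        _ = (2 * (7 / 8) ^ 32 * 8) ^ (2 ^ κ) := by rw [← mul_pow, ← mul_pow]
        _ ≤ 1 := pow_le_one₀ (by norm_num) (by norm_num)
    have e5 : (2 : ℝ) ^ R * (7 / 8) ^ k * y ^ 3 ≤ 1 := by
      by_contra hcon
      exact absurd e1 (not_le.2 (one_lt_pow₀ (not_le.1 hcon) (by norm_num)))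
    have e6 : (7 / 2 : ℝ) ^ k = 4 ^ k * (7 / 8) ^ k := by rw [← mul_pow]; norm_num
    rw [e6]
    have e7 : (2 : ℝ) ^ R * (7 / 8) ^ k ≤ (y ^ 3)⁻¹ := by
      rw [← one_div, le_div_iff₀ (by positivity)]; exact e5
    calc (2 : ℝ) ^ R * (4 ^ k * (7 / 8) ^ k) = 4 ^ k * (2 ^ R * (7 / 8) ^ k) := by ring
      _ ≤ _ := by gcongr
  have hsecond : (R : ℝ) ^ R * (((2 ^ (16 * κ) : ℕ) : ℝ) ^ R / m + 1) * n ^ (k - R) ≤
      2 * n ^ k * (y ^ 3)⁻¹ := by
    have e1 : (m : ℝ) ≤ ((2 ^ (16 * κ) : ℕ) : ℝ) ^ R := by exact_mod_cast hmR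
    set Br : ℝ := ((2 ^ (16 * κ) : ℕ) : ℝ) with hBr
    have hBr' : Br ≤ 32 * κ * n := by rw [hBr]; push_cast; exact hnB
    have e2 : Br ^ R / m + 1 ≤ 2 * (Br ^ R / m) := by
      have : 1 ≤ Br ^ R / m := by rw [le_div_iff₀ hm']; linarith
      linarith
    have e3 : Br ^ R ≤ (32 * κ) ^ R * n ^ R := by
      rw [← mul_pow]
      gcongr
    have e4 : n ^ k = n ^ R * n ^ (k - R) := by rw [← pow_add]; congr 1; omega
    have e5 : (32 * κ * R : ℝ) ^ R ≤ y := by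
      have : ((32 * κ * R : ℝ) ^ R) ^ 4 ≤ y ^ 4 := by
        rw [hy4, ← pow_mul, mul_comm R 4]
        exact_mod_cast hRm
      exact le_of_pow_le_pow_left₀ (by norm_num) hy0.le this
    calc (R : ℝ) ^ R * (Br ^ R / m + 1) * n ^ (k - R) ≤
        (R : ℝ) ^ R * (2 * (((32 * κ) ^ R * n ^ R) / m)) * n ^ (k - R) := by
          gcongr
          refine e2.trans ?_
          gcongr
      _ = 2 * n ^ k * ((32 * κ * R : ℝ) ^ R / m) := by
          rw [e4, mul_pow (32 * κ : ℝ)]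
          ring
      _ ≤ 2 * n ^ k * (y / m) := by gcongr
      _ = 2 * n ^ k * (y ^ 3)⁻¹ := by
          rw [← hy4]
          field_simp
  rw [hy3]
  calc n ^ k * (2 ^ R * (7 / 2) ^ k) +
        4 ^ k * ((R : ℝ) ^ R * (((2 ^ (16 * κ) : ℕ) : ℝ) ^ R / m + 1) * n ^ (k - R)) ≤
      n ^ k * (4 ^ k * (y ^ 3)⁻¹) + 4 ^ k * (2 * n ^ k * (y ^ 3)⁻¹) := by gcongr
    _ = _ := by ring

open Classical in
/-- The bad moduli of a family of primes. -/
noncomputable def Bad {k : ℕ} (κ : ℕ) (p : Fin k → ℕ) : Finset ℕ :=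
  (Finset.Icc (2 ^ (κ - 7)) (2 ^ (2 ^ κ))).filter
    (fun m : ℕ => (∀ i, m.Coprime (p i)) ∧ (4 : ℝ) ^ k * (m : ℝ) ^ (-(5 / 8) : ℝ) < coll p m)

theorem mem_Bad {k κ m : ℕ} {p : Fin k → ℕ} : m ∈ Bad κ p ↔
    (2 ^ (κ - 7) ≤ m ∧ m ≤ 2 ^ (2 ^ κ)) ∧ (∀ i, m.Coprime (p i)) ∧
      (4 : ℝ) ^ k * (m : ℝ) ^ (-(5 / 8) : ℝ) < coll p m := by
  rw [Bad, mem_filter, Finset.mem_Icc]

open Classical in
/-- Random primes have few collisions modulo most moduli. -/
theorem exists_good_primes (δ : ℝ) (hδ : 0 < δ) : ∃ κ₀ : ℕ, ∀ κ ≥ κ₀,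
    ∃ p : Fin (8 * 2 ^ κ) → ℕ,
      (∀ i, (p i).Prime ∧ 2 ^ (8 * κ) ≤ p i ∧ p i < 2 ^ (16 * κ)) ∧
      ∑ m ∈ Bad κ p, (m : ℝ) ^ (-(31 / 32) : ℝ) ≤ δ := by
  have hsum : Summable (fun m : ℕ => (m : ℝ) ^ (-(35 / 32) : ℝ)) :=
    Real.summable_nat_rpow.2 (by norm_num)
  obtain ⟨s, hs⟩ := summable_iff_vanishing_norm.1 hsum (δ / 3) (by positivity)
  obtain ⟨N0, hN0⟩ : ∃ N0 : ℕ, ∀ x ∈ s, x < N0 := ⟨s.sup id + 1, fun x hx =>
    Nat.lt_succ_of_le (Finset.le_sup (f := id) hx)⟩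
  refine ⟨50 + N0, fun κ hκ => ?_⟩
  have hκ50 : 50 ≤ κ := by omega
  set k : ℕ := 8 * 2 ^ κ with hk
  set Om := Fintype.piFinset (fun _ : Fin k => Pr κ) with hOm
  set A := Finset.Icc (2 ^ (κ - 7)) (2 ^ (2 ^ κ)) with hA
  have hOc : Om.card = (Pr κ).card ^ k := by
    rw [hOm, Fintype.card_piFinset, Finset.prod_const, Finset.card_univ, Fintype.card_fin]
  have hPr0 : 0 < (Pr κ).card := by
    have hnB := card_Pr κ hκ50
    rcases Nat.eq_zero_or_pos (Pr κ).card with h | h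
    · rw [h] at hnB
      have : (0 : ℝ) < 2 ^ (16 * κ) := by positivity
      simp at hnB
      linarith
    · exact h
  have hXN : N0 ≤ 2 ^ (κ - 7) := by
    have h1 : κ - 7 < 2 ^ (κ - 7) := Nat.lt_two_pow_self
    omega
  have hvan : ∑ m ∈ A, (m : ℝ) ^ (-(35 / 32) : ℝ) ≤ δ / 3 := by
    have h1 := hs A (by
      rw [Finset.disjoint_left]
      intro x hx hxs
      rw [hA, Finset.mem_Icc] at hx
      have := hN0 x hxs
      omega)
    exact (le_abs_self _).trans h1.le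
  have hbad : ∀ m ∈ A, (((Om.filter (fun p => (∀ i, m.Coprime (p i)) ∧
      (4 : ℝ) ^ k * (m : ℝ) ^ (-(5 / 8) : ℝ) < coll p m)).card : ℕ) : ℝ) ≤
      3 * ((Pr κ).card : ℝ) ^ k * (m : ℝ) ^ (-(1 / 8) : ℝ) := by
    intro m hm
    rw [hA, Finset.mem_Icc] at hm
    have hmpos : (0 : ℝ) < m := by
      have : 0 < m := lt_of_lt_of_le (by positivity) hm.1
      exact_mod_cast this
    have h1 := real_numeric κ hκ50 m hm.1 hm.2
    rw [← hk, ← hOm] at h1
    set U := Om.filter (fun p => (∀ i, m.Coprime (p i)) ∧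
      (4 : ℝ) ^ k * (m : ℝ) ^ (-(5 / 8) : ℝ) < coll p m) with hU
    have h2 : (U.card : ℝ) * ((4 : ℝ) ^ k * (m : ℝ) ^ (-(5 / 8) : ℝ)) ≤
        ((∑ p ∈ Om.filter (fun p => ∀ i, m.Coprime (p i)), coll p m : ℕ) : ℝ) := by
      rw [Nat.cast_sum, ← nsmul_eq_mul]
      calc U.card • ((4 : ℝ) ^ k * (m : ℝ) ^ (-(5 / 8) : ℝ)) ≤ ∑ p ∈ U, (coll p m : ℝ) := by
            apply Finset.card_nsmul_le_sum
            intro p hp
            rw [hU, mem_filter] at hp
            exact hp.2.2.le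
        _ ≤ _ := by
            apply Finset.sum_le_sum_of_subset_of_nonneg
            · intro p hp
              rw [hU, mem_filter] at hp
              rw [mem_filter]
              exact ⟨hp.1, hp.2.1⟩
            · intro p _ _
              positivity
    have h3 := h2.trans h1
    have h4 : 3 * ((Pr κ).card : ℝ) ^ k * 4 ^ k * (m : ℝ) ^ (-(3 / 4) : ℝ) =
        (3 * ((Pr κ).card : ℝ) ^ k * (m : ℝ) ^ (-(1 / 8) : ℝ)) *
          ((4 : ℝ) ^ k * (m : ℝ) ^ (-(5 / 8) : ℝ)) := by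
      have : (m : ℝ) ^ (-(3 / 4) : ℝ) = (m : ℝ) ^ (-(1 / 8) : ℝ) * (m : ℝ) ^ (-(5 / 8) : ℝ) := by
        rw [← Real.rpow_add hmpos]; norm_num
      rw [this]; ring
    rw [h4] at h3
    exact le_of_mul_le_mul_right h3 (by positivity)
  have htotal : ∑ p ∈ Om, (∑ m ∈ Bad κ p, (m : ℝ) ^ (-(31 / 32) : ℝ)) ≤
      ∑ _p ∈ Om, δ := by
    have h1 : ∑ p ∈ Om, (∑ m ∈ Bad κ p, (m : ℝ) ^ (-(31 / 32) : ℝ)) =
      ∑ m ∈ A, (((Om.filter (fun p => (∀ i, m.Coprime (p i)) ∧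
      (4 : ℝ) ^ k * (m : ℝ) ^ (-(5 / 8) : ℝ) < coll p m)).card : ℕ) : ℝ) *
        (m : ℝ) ^ (-(31 / 32) : ℝ) := by
      simp only [Bad, Finset.sum_filter]
      rw [Finset.sum_comm]
      apply Finset.sum_congr rfl
      intro m _
      rw [← Finset.sum_filter, Finset.sum_const, nsmul_eq_mul]
    rw [h1]
    calc _ ≤ ∑ m ∈ A, (3 * ((Pr κ).card : ℝ) ^ k) * (m : ℝ) ^ (-(35 / 32) : ℝ) := by
          apply Finset.sum_le_sum
          intro m hm
          have hmpos : (0 : ℝ) < m := by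
            rw [hA, Finset.mem_Icc] at hm
            have : 0 < m := lt_of_lt_of_le (by positivity) hm.1
            exact_mod_cast this
          have e : (m : ℝ) ^ (-(35 / 32) : ℝ) =
              (m : ℝ) ^ (-(1 / 8) : ℝ) * (m : ℝ) ^ (-(31 / 32) : ℝ) := by
            rw [← Real.rpow_add hmpos]; norm_num
          rw [e, ← mul_assoc]
          exact mul_le_mul_of_nonneg_right (hbad m hm) (by positivity)
      _ = (3 * ((Pr κ).card : ℝ) ^ k) * ∑ m ∈ A, (m : ℝ) ^ (-(35 / 32) : ℝ) := by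
          rw [Finset.mul_sum]
      _ ≤ (3 * ((Pr κ).card : ℝ) ^ k) * (δ / 3) := by gcongr
      _ = ∑ _p ∈ Om, δ := by
          rw [Finset.sum_const, nsmul_eq_mul, hOc]; push_cast; ring
  obtain ⟨p, hp, hpd⟩ := Finset.exists_le_of_sum_le
    (Fintype.piFinset_nonempty.2 fun _ => Finset.card_pos.1 hPr0) htotal
  refine ⟨p, fun i => mem_Pr.1 (Fintype.mem_piFinset.1 hp i), hpd⟩

end Vale.Agent.Lib.P012Full
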